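import Vale.Agent.P299.H956.D1.Pull
import Vale.Agent.P299.H723.D2.Iface
import Mathlib.Geometry.Manifold.LocalDiffeomorph

/-!
# P299, D2: the Laplacian of the pull back metric, computed with local sections
-/

open scoped Manifold ContDiff ComplexOrder Topology
open Vale.Agent.P272.K Vale.Agent.P272.K.AMP Vale.Agent.P299.D Vale.Agent.P299.H956 Metric Filter Set

noncomputable section

namespace Vale.Agent.P299.D2.H766

variable {n : ℕ} {X M : Type*} [TopologicalSpace X] [TopologicalSpace M]
  [ChartedSpace (Cm n) X] [ChartedSpace (Cm n) M] [IsManifold 𝓘(ℂ, Cm n) ω X]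
  [IsManifold 𝓘(ℂ, Cm n) ω M] {w : FormM n X} {π : M → X} {s : X → M} {x : X} {e : Chart n X}

omit [IsManifold 𝓘(ℂ, Cm n) ω X] [IsManifold 𝓘(ℂ, Cm n) ω M] in
/-- a continuous section of a local biholomorphism is holomorphic -/
lemma section_contMDiffAt (hπ : IsLocalDiffeomorph 𝓘(ℂ, Cm n) 𝓘(ℂ, Cm n) ω π)
    (hs : ContinuousAt s x) (hsec : ∀ᶠ y in 𝓝 x, π (s y) = y) :
    ContMDiffAt 𝓘(ℂ, Cm n) 𝓘(ℂ, Cm n) ω s x := by
  obtain ⟨Φ, hΦ, heq⟩ := hπ (s x)
  have hx : π (s x) = x := hsec.self_of_nhds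
  have h1 : ∀ᶠ y in 𝓝 x, s y = Φ.symm y := by
    filter_upwards [hsec, hs.eventually (Φ.open_source.mem_nhds hΦ)] with y hy hy2
    have h2 : Φ (s y) = y := by rw [← heq hy2]; exact hy
    have h3 : Φ.symm (Φ (s y)) = s y := Φ.left_inv hy2
    rw [h2] at h3
    exact h3.symm
  have hxt : x ∈ Φ.target := by
    have h2 : Φ (s x) = x := by rw [← heq hΦ]; exact hx
    rw [← h2]
    exact Φ.map_source hΦ
  have h4 : ContMDiffAt 𝓘(ℂ, Cm n) 𝓘(ℂ, Cm n) ω Φ.symm x :=
    (Φ.contMDiffOn_invFun x hxt).contMDiffAt (Φ.open_target.mem_nhds hxt)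
  exact h4.congr_of_eventuallyEq h1

/-- **Laplacian of the pull back metric** -/
theorem lap_lift (hw : IsForm w) (hπ : IsLocalDiffeomorph 𝓘(ℂ, Cm n) 𝓘(ℂ, Cm n) ω π)
    {u : M → ℝ} (hu : SmoothFn (n := n) u) (hs : ContinuousAt s x)
    (hsec : ∀ᶠ y in 𝓝 x, π (s y) = y) (he : At e x) :
    ContDiffAt ℝ ∞ (fun z => u (s (e.symm z))) (e x) ∧
      lapX (n := n) (pullM π w) u (s x) = lapG (w e) (fun z => u (s (e.symm z))) (e x) := by
  have hx : π (s x) = x := hsec.self_of_nhds
  have hsm := section_contMDiffAt hπ hs hsec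
  set c : Chart n M := chartAt (Cm n) (s x) with hc
  have hcAt : At c (s x) := Vale.Agent.P299.H956.at_chartAt (n := n) (s x)
  have hπm : ContMDiffAt 𝓘(ℂ, Cm n) 𝓘(ℂ, Cm n) ω π (s x) := hπ.contMDiff.contMDiffAt
  have he' : At e (π (s x)) := by rw [hx]; exact he
  have hσ : ContDiffAt ℂ ω (fun z => c (s (e.symm z))) (e x) := rep_hol hsm he hcAt
  have hev : (fun z => u (s (e.symm z))) =ᶠ[𝓝 (e x)]
      fun z => (fun y => u (c.symm y)) ((fun z => c (s (e.symm z))) z) := by
    filter_upwards [nhds_at_map hs he hcAt] with z hz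
    show u (s (e.symm z)) = u (c.symm (c (s (e.symm z))))
    rw [hz.2.2.left_inv]
  have hval : c (s (e.symm (e x))) = c (s x) := by rw [he.left_inv]
  have hus : ContDiffAt ℝ ∞ (fun y => u (c.symm y)) (c (s x)) := hu c (s x) hcAt
  have hJ : jacF π c e (s x) * jacF s e c x = 1 := by
    have h1 := jacF_comp (f := s) (g := π) (e := e) (e' := c) (e'' := e) (y := x) hsm hπm he hcAt he'
    rw [← h1]
    have h2 : jacF (fun y => π (s y)) e e x = jacM e e x := by
      rw [jacF_eq]
      rw [jacM_eq, ← jmR_eq_jmat]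
      refine jmR_congr ?_
      have h3 : ∀ᶠ z in 𝓝 (e x), π (s (e.symm z)) = e.symm z := by
        have h4 : Tendsto e.symm (𝓝 (e x)) (𝓝 x) := by
          have h5 := e.continuousAt_symm he.mem_target
          rwa [ContinuousAt, he.left_inv] at h5
        exact h4.eventually hsec
      filter_upwards [h3] with z hz
      rw [hz]
    rw [h2, jacM_self he]
  set J := jacF s e c x with hJdef
  set A := pullM π w c (c (s x)) with hA
  have hA' : A = (jacF π c e (s x)).transpose * w e (e x) *
      (jacF π c e (s x)).map (starRingEnd ℂ) := by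
    rw [hA, pullM_eq hw hπm hcAt he', hx]
  have hwA : w e (e x) = J.transpose * A * J.map (starRingEnd ℂ) := by
    rw [hA']
    have h1 : J.transpose * (jacF π c e (s x)).transpose = 1 := by
      rw [← Matrix.transpose_mul, hJ, Matrix.transpose_one]
    have h2 : (jacF π c e (s x)).map (starRingEnd ℂ) * J.map (starRingEnd ℂ) = 1 := by
      rw [← Matrix.map_mul, hJ]
      exact Matrix.map_one _ (map_zero _) (map_one _)
    calc w e (e x) = 1 * w e (e x) * 1 := by rw [Matrix.one_mul, Matrix.mul_one]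
      _ = (J.transpose * (jacF π c e (s x)).transpose) * w e (e x) *
          ((jacF π c e (s x)).map (starRingEnd ℂ) * J.map (starRingEnd ℂ)) := by rw [h1, h2]
      _ = _ := by simp only [Matrix.mul_assoc]
  have hunit : IsUnit J.det := by
    have h1 := congrArg Matrix.det hJ
    rw [Matrix.det_mul, Matrix.det_one] at h1
    exact IsUnit.of_mul_eq_one_right _ h1
  refine ⟨?_, ?_⟩
  · refine ContDiffAt.congr_of_eventuallyEq ?_ hev
    refine ContDiffAt.comp (e x) (g := fun y => u (c.symm y)) ?_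
      ((hσ.restrict_scalars ℝ).of_le (by exact le_top))
    rw [hval]; exact hus
  · have h1 : cHess (fun z => u (s (e.symm z))) (e x) =
        J.transpose * cHess (fun y => u (c.symm y)) (c (s x)) * J.map (starRingEnd ℂ) := by
      rw [cHess_congr hev]
      have := cHess_compR (f := fun y => u (c.symm y)) (τ := fun z => c (s (e.symm z))) (z := e x)
        (by rw [hval]; exact hus.of_le (by norm_cast)) hσ
      rw [hval] at this
      exact this
    have h2 : lapX (n := n) (pullM π w) u (s x) =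
        (A⁻¹ * cHess (fun y => u (c.symm y)) (c (s x))).trace.re := rfl
    rw [h2]
    unfold lapG
    rw [h1, hwA, trace_form hunit]

end Vale.Agent.P299.D2.H766
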