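import Vale.Agent.P299.H766.MaxLoc
import Vale.Agent.P299.H766.Lift
import Mathlib.Topology.Covering.Basic

/-!
# P299, D2-MAX: maximum principle on a covering of a compact Kähler manifold
-/

open scoped Manifold ContDiff ComplexOrder Topology
open Vale.Agent.P272.K Vale.Agent.P272.K.AMP Vale.Agent.P299.D Metric Filter Set

noncomputable section

namespace Vale.Agent.P299.D2.H766

/-- sections of a covering over an evenly covered open set -/
lemma exists_sections {X M : Type*} [TopologicalSpace X] [TopologicalSpace M] {π : M → X}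
    (hπ : IsCoveringMap π) (x : X) : ∃ U : Set X, IsOpen U ∧ x ∈ U ∧ ∀ m, π m ∈ U →
      ∃ s : X → M, ContinuousOn s U ∧ (∀ y ∈ U, π (s y) = y) ∧ s (π m) = m ∧
        ∀ᶠ m' in 𝓝 m, s (π m') = m' := by
  obtain ⟨hd, U, hxU, hU, hpU, H, hH⟩ := hπ x
  refine ⟨U, hU, hxU, fun m hm => ?_⟩
  classical
  set i := (H ⟨m, hm⟩).2 with hi
  refine ⟨fun y => if hy : y ∈ U then (H.symm (⟨y, hy⟩, i) : M) else m, ?_, ?_, ?_, ?_⟩
  · rw [continuousOn_iff_continuous_domRestrict]
    have h1 : Continuous fun y : U => ((H.symm (y, i) : π ⁻¹' U) : M) := by fun_prop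
    refine h1.congr fun y => ?_
    simp
  · intro y hy
    simp only [hy, dif_pos]
    rw [← hH]
    simp
  · simp only [hm, dif_pos]
    have h1 : ((⟨π m, hm⟩ : U), i) = H ⟨m, hm⟩ := by
      refine Prod.ext ?_ rfl
      exact Subtype.ext (hH ⟨m, hm⟩).symm
    rw [h1, H.symm_apply_apply]
  · have h2 : ∀ᶠ m' : π ⁻¹' U in 𝓝 (⟨m, hm⟩ : π ⁻¹' U), (H m').2 = i := by
      have h3 : Continuous fun m' : π ⁻¹' U => (H m').2 := by fun_prop
      have h4 : {i} ∈ 𝓝 ((H ⟨m, hm⟩).2) := by
        rw [nhds_discrete]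
        exact Filter.mem_pure.2 rfl
      exact h3.continuousAt.eventually h4
    have h3 : ∀ᶠ m' in 𝓝 m, ∃ h : m' ∈ π ⁻¹' U, (H ⟨m', h⟩).2 = i := by
      rw [nhds_subtype_eq_comap, eventually_comap] at h2
      filter_upwards [h2, hpU.mem_nhds hm] with m' h4 h5
      exact ⟨h5, h4 ⟨m', h5⟩ rfl⟩
    filter_upwards [h3] with m' h4
    obtain ⟨h5, h6⟩ := h4
    have h5' : π m' ∈ U := h5
    simp only [h5', dif_pos]
    have h1 : ((⟨π m', h5'⟩ : U), i) = H ⟨m', h5⟩ := by
      refine Prod.ext ?_ h6.symm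
      exact Subtype.ext (hH ⟨m', h5⟩).symm
    rw [h1, H.symm_apply_apply]

section patch

variable {n : ℕ} {X M : Type*} [TopologicalSpace X] [TopologicalSpace M]
  [ChartedSpace (Cm n) X] [ChartedSpace (Cm n) M] [IsManifold 𝓘(ℂ, Cm n) ω X]
  [IsManifold 𝓘(ℂ, Cm n) ω M] {w : FormM n X} {π : M → X}

/-- `R` is a good (squared) radius at `x`: the metric is good on the coordinate ball and functions on
`M` can be transported to the coordinate ball by sections of `π`. -/
structure Good (w : FormM n X) (π : M → X) (x : X) (R : ℝ) : Prop where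
  pos : 0 < R
  posDef : ∀ z, nq (chartAt (Cm n) x x) z ≤ R → (w (chartAt (Cm n) x) z).PosDef
  cont : ∀ i j, ContinuousOn (fun z => w (chartAt (Cm n) x) z i j) {z | nq (chartAt (Cm n) x x) z ≤ R}
  sec : ∀ m, π m ∈ (chartAt (Cm n) x).source →
    nq (chartAt (Cm n) x x) (chartAt (Cm n) x (π m)) ≤ R →
    ∃ s : X → M, s (π m) = m ∧ (∀ᶠ m' in 𝓝 m, s (π m') = m') ∧
      ∀ u : M → ℝ, SmoothFn (n := n) u → ∀ z, nq (chartAt (Cm n) x x) z ≤ R →
        ContDiffAt ℝ 2 (fun z => u (s ((chartAt (Cm n) x).symm z))) z ∧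
        lapG (w (chartAt (Cm n) x)) (fun z => u (s ((chartAt (Cm n) x).symm z))) z =
          lapX (n := n) (pullM π w) u (s ((chartAt (Cm n) x).symm z))

lemma exists_good (hw : IsHermitian w) (hπ : IsCoveringMap π)
    (hloc : IsLocalDiffeomorph 𝓘(ℂ, Cm n) 𝓘(ℂ, Cm n) ω π) (x : X) : ∃ R, Good w π x R := by
  obtain ⟨U, hU, hxU, hsec⟩ := exists_sections hπ x
  set e : Chart n X := chartAt (Cm n) x with he
  have hx : At e x := Vale.Agent.P299.H956.at_chartAt (n := n) x
  have h1 : ∀ᶠ z in 𝓝 (e x), z ∈ e.target ∧ e.symm z ∈ U := by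
    refine hx.nhds_target.and ?_
    have h5 := e.continuousAt_symm hx.mem_target
    rw [ContinuousAt, hx.left_inv] at h5
    exact h5.eventually (hU.mem_nhds hxU)
  obtain ⟨ρ, hρ, hball⟩ := Metric.eventually_nhds_iff.1 h1
  have hin : ∀ z, nq (e x) z ≤ (ρ / 2) ^ 2 → z ∈ e.target ∧ e.symm z ∈ U := by
    intro z hz
    refine hball ?_
    rw [dist_eq_norm]
    have h2 := (norm_sq_le_nq (e x) z).trans hz
    have h3 : ‖z - e x‖ ≤ ρ / 2 := by
      exact (pow_le_pow_iff_left₀ (norm_nonneg _) (by positivity) (by norm_num)).1 h2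
    linarith
  refine ⟨(ρ / 2) ^ 2, by positivity, fun z hz => hw.posDef_target hx.1 (hin z hz).1, fun i j z hz => ?_,
    fun m hm hm2 => ?_⟩
  · exact (hw.smooth_target hx.1 (hin z hz).1 i j).continuousAt.continuousWithinAt
  · have hmU : π m ∈ U := by
      have := (hin _ hm2).2
      rwa [e.left_inv hm] at this
    obtain ⟨s, hs, hπs, hsm, hsev⟩ := hsec m hmU
    refine ⟨s, hsm, hsev, fun u hu z hz => ?_⟩
    obtain ⟨hz1, hz2⟩ := hin z hz
    have hz3 : At e (e.symm z) := At.of_target hx.1 hz1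
    have := lap_lift hw.isForm hloc hu (hs.continuousAt (hU.mem_nhds hz2))
      (by filter_upwards [hU.mem_nhds hz2] with y hy using hπs y hy) hz3
    rw [e.right_inv hz1] at this
    exact ⟨this.1.of_le (by norm_cast), this.2.symm⟩

end patch

lemma nq_le_two {n : ℕ} (a b c : Cm n) : nq a c ≤ 2 * nq a b + 2 * nq b c := by
  rw [nq_eq, nq_eq, nq_eq, Finset.mul_sum, Finset.mul_sum, ← Finset.sum_add_distrib]
  refine Finset.sum_le_sum fun i _ => ?_
  have h1 : ‖c i - a i‖ ≤ ‖b i - a i‖ + ‖c i - b i‖ := by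
    have : c i - a i = (b i - a i) + (c i - b i) := by ring
    rw [this]
    exact norm_add_le _ _
  have h2 := pow_le_pow_left₀ (norm_nonneg _) h1 2
  nlinarith [sq_nonneg (‖b i - a i‖ - ‖c i - b i‖)]

lemma nq_comm {n : ℕ} (a b : Cm n) : nq a b = nq b a := by
  rw [nq_eq, nq_eq]
  exact Finset.sum_congr rfl fun i _ => by rw [norm_sub_rev]

lemma smoothFn_continuous {n : ℕ} {M : Type*} [TopologicalSpace M] [ChartedSpace (Cm n) M]
    {u : M → ℝ} (hu : SmoothFn (n := n) u) : Continuous u := by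
  rw [continuous_iff_continuousAt]
  intro x
  have hx : At (chartAt (Cm n) x : Chart n M) x := Vale.Agent.P299.H956.at_chartAt (n := n) x
  set e : Chart n M := chartAt (Cm n) x
  have h1 : ContinuousAt (fun x' => u (e.symm (e x'))) x :=
    ContinuousAt.comp (f := e) (g := fun y => u (e.symm y)) (hu e x hx).continuousAt
      (e.continuousAt hx.2)
  refine h1.congr ?_
  filter_upwards [e.open_source.mem_nhds hx.2] with x' hx'
  rw [e.left_inv hx']

/-- **D2-MAX** -/
theorem maxStatement : MaxStatement := by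
  intro n X _ _ _ _ _ _ w hw M _ _ _ _ _ _ π hπ hsurj hloc μ hμ u hu hbd hsup
  have hL : ∀ m, lapX (n := n) (pullM π w) u m ≤ μ * u m := fun m => by
    have := hsup m
    linarith
  have hucont : Continuous u := smoothFn_continuous hu
  have hwH : IsHermitian w := hw.toIsHermitian
  have h0 : ∀ m, 0 ≤ u m := by
    by_contra hcon
    push Not at hcon
    obtain ⟨m0, hm0⟩ := hcon
    obtain ⟨C0, hC0⟩ := hbd
    have hbdd : BddBelow (Set.range u) := ⟨-C0, by rintro _ ⟨m, rfl⟩; exact hC0 m⟩
    set a := ⨅ m, u m with ha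
    have hale : ∀ m, a ≤ u m := fun m => ciInf_le hbdd m
    have haneg : a < 0 := (hale m0).trans_lt hm0
    have hne : Nonempty M := ⟨m0⟩
    have hseq : ∀ k : ℕ, ∃ m, u m < a + 1 / ((k : ℝ) + 1) := fun k =>
      exists_lt_of_ciInf_lt (by
        have : 0 < 1 / ((k : ℝ) + 1) := by positivity
        linarith)
    choose mk hmk using hseq
    obtain ⟨x, hx⟩ := exists_clusterPt_of_compactSpace (Filter.map (fun k => π (mk k)) atTop)
    obtain ⟨R, hR⟩ := exists_good (M := M) hwH hπ hloc x
    set e : Chart n X := chartAt (Cm n) x with he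
    have hxe : At e x := Vale.Agent.P299.H956.at_chartAt (n := n) x
    obtain ⟨C, hC, hstep⟩ := weak_step hR.pos hR.posDef hR.cont
    have hRpos := hR.pos
    have key : ∀ δ : ℝ, 0 < δ → 0 ≤ μ * (a + δ * R) + δ * C := by
      intro δ hδ
      -- a near minimiser close to `x`
      have hV : {y | y ∈ e.source ∧ nq (e x) (e y) < R / 4} ∈ 𝓝 x := by
        have h1 : ∀ᶠ y in 𝓝 x, nq (e x) (e y) < R / 4 := by
          have h2 : ContinuousAt (fun y => nq (e x) (e y)) x :=
            ContinuousAt.comp (g := nq (e x)) (f := e) continuous_nq.continuousAt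
              (e.continuousAt hxe.2)
          refine h2.eventually (gt_mem_nhds ?_)
          show nq (e x) (e x) < R / 4
          rw [nq_self]
          positivity
        exact Filter.Eventually.and (e.open_source.mem_nhds hxe.2) h1
      have hfreq : ∃ᶠ k in atTop, π (mk k) ∈ {y | y ∈ e.source ∧ nq (e x) (e y) < R / 4} :=
        (mapClusterPt_iff_frequently.1 hx) _ hV
      have hlarge : ∀ᶠ k : ℕ in atTop, 1 / ((k : ℝ) + 1) < δ * R / 4 :=
        (tendsto_one_div_add_atTop_nhds_zero_nat (𝕜 := ℝ)).eventually (gt_mem_nhds (by positivity))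
      obtain ⟨k, hk1, hk2⟩ := (hfreq.and_eventually hlarge).exists
      obtain ⟨s, hsm, -, hs⟩ := hR.sec (mk k) hk1.1 (by
        have : nq (e x) (e (π (mk k))) < R / 4 := hk1.2
        exact this.le.trans (by linarith))
      refine hstep μ (fun z => u (s (e.symm z))) a δ hμ.le hδ (fun z hz => (hs u hu z hz).1)
        (fun z hz => hale _) (fun z hz => ?_) ⟨e (π (mk k)), (le_of_lt hk1.2), ?_⟩
      · rw [(hs u hu z (le_of_lt hz)).2]
        exact hL _
      · show u (s (e.symm (e (π (mk k))))) < _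
        rw [e.left_inv hk1.1, hsm]
        have := hmk k
        linarith
    -- let `δ → 0`
    have hlim : Tendsto (fun δ : ℝ => μ * (a + δ * R) + δ * C) (𝓝[>] 0) (𝓝 (μ * (a + 0 * R) + 0 * C)) := by
      refine Tendsto.mono_left ?_ nhdsWithin_le_nhds
      exact Continuous.tendsto (by fun_prop) 0
    have h1 : 0 ≤ μ * (a + 0 * R) + 0 * C :=
      ge_of_tendsto hlim (by
        filter_upwards [self_mem_nhdsWithin] with δ hδ
        exact key δ hδ)
    have h2 : μ * a < 0 := mul_neg_of_pos_of_neg hμ haneg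
    linarith
  refine ⟨h0, fun ⟨m0, hm0⟩ => ?_⟩
  -- the zero set is open and closed
  have hclosed : IsClosed {m | u m = 0} := isClosed_eq hucont continuous_const
  have hopen : IsOpen {m | u m = 0} := by
    rw [isOpen_iff_mem_nhds]
    intro m hm
    have hm' : u m = 0 := hm
    obtain ⟨R, hR⟩ := exists_good (M := M) hwH hπ hloc (π m)
    have hRpos := hR.pos
    set e : Chart n X := chartAt (Cm n) (π m) with he
    have hxe : At e (π m) := Vale.Agent.P299.H956.at_chartAt (n := n) (π m)
    obtain ⟨s, hsm, hsev, hs⟩ := hR.sec m hxe.2 (by rw [nq_self]; exact hRpos.le)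
    have hzero : ∀ z, nq (e (π m)) z < R / 16 → u (s (e.symm z)) = 0 := by
      intro z1 hz1
      by_contra hne
      have hpos : 0 < u (s (e.symm z1)) := lt_of_le_of_ne (h0 _) (Ne.symm hne)
      have hsub : ∀ z, nq z1 z ≤ R / 4 → nq (e (π m)) z ≤ R := by
        intro z hz
        have := nq_le_two (e (π m)) z1 z
        linarith
      have h1 := spread (z0 := z1) (g := w e) (μ := μ) (R := R / 4) hμ.le
        (u := fun z => u (s (e.symm z))) (fun z hz => hR.posDef z (hsub z hz))
        (fun i j => (hR.cont i j).mono fun z hz => hsub z hz)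
        (fun z hz => (hs u hu z (hsub z hz)).1) (fun z _ => h0 _)
        (fun z hz => by
          rw [(hs u hu z (hsub z (le_of_lt hz))).2]
          exact hL _) hpos (z1 := e (π m)) (by
            rw [nq_comm]
            linarith)
      have h2 : u (s (e.symm (e (π m)))) = 0 := by
        rw [hxe.left_inv, hsm, hm']
      simp only [h2, lt_irrefl] at h1
    have h3 : ∀ᶠ m' in 𝓝 m, π m' ∈ e.source ∧ nq (e (π m)) (e (π m')) < R / 16 := by
      have hπc : ContinuousAt π m := hπ.continuous.continuousAt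
      refine (hπc.eventually (e.open_source.mem_nhds hxe.2)).and ?_
      have h2 : ContinuousAt (fun m' => nq (e (π m)) (e (π m'))) m :=
        ContinuousAt.comp (g := nq (e (π m))) (f := fun m' => e (π m')) continuous_nq.continuousAt
          (ContinuousAt.comp (g := e) (f := π) (e.continuousAt hxe.2) hπc)
      refine h2.eventually (gt_mem_nhds ?_)
      show nq (e (π m)) (e (π m)) < R / 16
      rw [nq_self]
      positivity
    filter_upwards [hsev, h3] with m' h4 h5
    have h6 := hzero _ h5.2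
    rw [e.left_inv h5.1, h4] at h6
    exact h6
  have huniv : {m | u m = 0} = Set.univ :=
    IsClopen.eq_univ ⟨hclosed, hopen⟩ ⟨m0, hm0⟩
  intro m
  have : m ∈ {m | u m = 0} := by rw [huniv]; trivial
  exact this

end Vale.Agent.P299.D2.H766
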