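import Vale.Agent.P299.H723.D2.Iface
import Vale.Agent.P272.K.AMP.Calc
import Vale.Agent.P272.K.AMP.Pole.Quad

/-!
# P299, D2-MAX: local part of the maximum principle

`lapG g` at a local minimum, the function `nq z0 z = Σ |z_i - z0_i|²`, spreading of positivity.
-/

open scoped Manifold ContDiff ComplexOrder Topology
open Vale.Agent.P272.K Vale.Agent.P272.K.AMP Metric Filter Set

noncomputable section

namespace Vale.Agent.P299.D2.H766

variable {n : ℕ} {g : Cm n → Matrix (Fin n) (Fin n) ℂ} {f h : Cm n → ℝ} {φ : ℝ → ℝ}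
  {z z0 : Cm n}

/-- the Laplacian is nonnegative at a local minimum -/
lemma lapG_nonneg_of_min (hg : (g z).PosDef) (hf : ContDiffAt ℝ 2 f z) (hm : IsLocalMin f z) :
    0 ≤ lapG g f z := by
  have h1 : IsLocalMax (fun y => (-1) * f y) z := by
    filter_upwards [hm] with y hy
    linarith
  have h2 := N.neg_cHess_posSemidef (contDiffAt_const.mul hf) h1
  rw [cHess_const_mul (-1) hf] at h2
  have h3 : (-(((-1 : ℝ) : ℂ) • cHess f z)) = cHess f z := by simp
  rw [h3] at h2
  exact (Complex.le_def.1 (C2.trace_mul_nonneg hg.inv.posSemidef h2)).1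

lemma lapG_add (hf : ContDiffAt ℝ 2 f z) (hh : ContDiffAt ℝ 2 h z) :
    lapG g (fun y => f y + h y) z = lapG g f z + lapG g h z := by
  unfold lapG
  rw [cHess_add hf hh, tr_add]

lemma lapG_const_mul (c : ℝ) (hf : ContDiffAt ℝ 2 f z) :
    lapG g (fun y => c * f y) z = c * lapG g f z := by
  unfold lapG
  rw [cHess_const_mul c hf, tr_smul]

lemma lapG_congr (hfh : f =ᶠ[𝓝 z] h) : lapG g f z = lapG g h z := by
  unfold lapG
  rw [cHess_congr hfh]

lemma lapG_comp (hφ : ContDiffAt ℝ 2 φ (f z)) (hf : ContDiffAt ℝ 2 f z) :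
    lapG g (fun y => φ (f y)) z =
      deriv φ (f z) * lapG g f z + deriv (deriv φ) (f z) * gradG g f f z := by
  unfold lapG
  rw [cHess_comp_real hφ hf, tr_add, tr_smul, tr_smul]
  rfl

/-- `Σ |z_i - z0_i|²` -/
def nq (z0 z : Cm n) : ℝ := Pole.qf 1 (z - z0)

lemma contDiff_nq : ContDiff ℝ ∞ (nq z0) := Pole.contDiff_qf

lemma continuous_nq : Continuous (nq z0) := (contDiff_nq (n := n) (z0 := z0)).continuous

lemma nq_two : ContDiffAt ℝ 2 (nq z0) z := contDiff_nq.contDiffAt.of_le (by norm_cast)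

lemma cHess_nq : cHess (nq z0) z = 1 := Pole.cHess_qf Matrix.isHermitian_one

lemma nq_self : nq z0 z0 = 0 := by simp [nq, Pole.qf_zero]

lemma nq_eq (z0 z : Cm n) : nq z0 z = ∑ i, ‖z i - z0 i‖ ^ 2 := by
  have h1 : ((nq z0 z : ℝ) : ℂ) = ((∑ i, ‖z i - z0 i‖ ^ 2 : ℝ) : ℂ) := by
    unfold nq
    rw [Pole.qf_ofReal Matrix.isHermitian_one]
    push_cast
    refine Finset.sum_congr rfl fun k _ => ?_
    rw [Finset.sum_eq_single k]
    · rw [Matrix.one_apply_eq, one_mul, Complex.mul_conj]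
      simp [Complex.normSq_eq_norm_sq]
    · intro j _ hj
      rw [Matrix.one_apply_ne hj, zero_mul]
    · simp
  exact_mod_cast h1

lemma nq_nonneg (z0 z : Cm n) : 0 ≤ nq z0 z := by
  rw [nq_eq]
  exact Finset.sum_nonneg fun i _ => by positivity

lemma norm_sq_le_nq (z0 z : Cm n) : ‖z - z0‖ ^ 2 ≤ nq z0 z := by
  have h1 : ‖z - z0‖ ≤ √(nq z0 z) := by
    refine (pi_norm_le_iff_of_nonneg (Real.sqrt_nonneg _)).2 fun i => ?_
    refine Real.le_sqrt_of_sq_le ?_
    rw [nq_eq]
    exact Finset.single_le_sum (f := fun i => ‖z i - z0 i‖ ^ 2) (fun i _ => by positivity)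
      (Finset.mem_univ i)
  calc ‖z - z0‖ ^ 2 ≤ √(nq z0 z) ^ 2 := pow_le_pow_left₀ (norm_nonneg _) h1 2
    _ = nq z0 z := Real.sq_sqrt (nq_nonneg _ _)

lemma nq_le (z0 z : Cm n) : nq z0 z ≤ n * ‖z - z0‖ ^ 2 := by
  rw [nq_eq]
  have h1 : ∀ i ∈ (Finset.univ : Finset (Fin n)), ‖z i - z0 i‖ ^ 2 ≤ ‖z - z0‖ ^ 2 := by
    intro i _
    have := norm_le_pi_norm (z - z0) i
    exact pow_le_pow_left₀ (norm_nonneg _) this 2
  refine (Finset.sum_le_sum h1).trans ?_
  simp

lemma nq_pos (h : z ≠ z0) : 0 < nq z0 z := by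
  have h1 : 0 < ‖z - z0‖ := norm_pos_iff.2 (sub_ne_zero.2 h)
  have := norm_sq_le_nq z0 z
  nlinarith [sq_pos_of_pos h1]

/-- closed Euclidean ball, radius squared `R` -/
lemma isCompact_nq (z0 : Cm n) (a b : ℝ) : IsCompact {z | a ≤ nq z0 z ∧ nq z0 z ≤ b} := by
  refine Metric.isCompact_of_isClosed_isBounded ?_ ?_
  · exact (isClosed_le continuous_const continuous_nq).inter
      (isClosed_le continuous_nq continuous_const)
  · refine (Metric.isBounded_closedBall (x := z0) (r := √b)).subset fun z hz => ?_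
    rw [mem_closedBall, dist_eq_norm]
    exact Real.le_sqrt_of_sq_le ((norm_sq_le_nq z0 z).trans hz.2)

/-- continuity of the inverse of the metric -/
lemma continuousOn_inv {K : Set (Cm n)} (hg : ∀ z ∈ K, (g z).PosDef)
    (hc : ∀ i j, ContinuousOn (fun z => g z i j) K) (i j : Fin n) :
    ContinuousOn (fun z => (g z)⁻¹ i j) K := by
  have h1 : ContinuousOn (fun z => (g z)) K := continuousOn_pi.2 fun i => continuousOn_pi.2 fun j => hc i j
  have h2 : ContinuousOn (fun z => (g z).det) K := by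
    simp only [Matrix.det_apply']
    fun_prop
  have h3 : ContinuousOn (fun z => (g z).adjugate i j) K :=
    (continuous_apply_apply i j).comp_continuousOn
      ((Continuous.matrix_adjugate continuous_id).comp_continuousOn h1)
  have h4 : ∀ z, (g z)⁻¹ i j = (g z).det⁻¹ * (g z).adjugate i j := by
    intro z
    rw [Matrix.inv_def, Matrix.smul_apply, Ring.inverse_eq_inv', smul_eq_mul]
  simp only [h4]
  exact (h2.inv₀ fun z hz => (hg z hz).det_pos.ne').mul h3

lemma lapG_nq : lapG g (nq z0) z = (g z)⁻¹.trace.re := by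
  unfold lapG
  rw [cHess_nq, mul_one]

lemma gradG_nq : gradG g (nq z0) (nq z0) z =
    (∑ i, ∑ j, (g z)⁻¹ i j * ((starRingEnd ℂ) (z j - z0 j) * (z i - z0 i))).re := by
  have h1 : ∀ i, dz i (fun y => ((nq z0 y : ℝ) : ℂ)) z = (starRingEnd ℂ) (z i - z0 i) := by
    intro i
    have := Pole.dz_qf (P := (1 : Matrix (Fin n) (Fin n) ℂ)) (z0 := z0) (z := z)
      Matrix.isHermitian_one i
    rw [show (fun y => ((nq z0 y : ℝ) : ℂ)) = fun y => ((Pole.qf 1 (y - z0) : ℝ) : ℂ) from rfl, this,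
      Finset.sum_eq_single i]
    · simp
    · intro k _ hk
      rw [Matrix.one_apply_ne (Ne.symm hk), zero_mul]
    · simp
  have h2 : ∀ i, dzb i (fun y => ((nq z0 y : ℝ) : ℂ)) z = z i - z0 i := by
    intro i
    rw [dzb_real_eq (nq z0) z i, h1, Complex.conj_conj]
  unfold gradG ddG
  simp only [Matrix.trace, Matrix.diag_apply, Matrix.mul_apply, Matrix.of_apply, h1, h2]

lemma continuousOn_lapG_nq {K : Set (Cm n)} (hg : ∀ z ∈ K, (g z).PosDef)
    (hc : ∀ i j, ContinuousOn (fun z => g z i j) K) : ContinuousOn (lapG g (nq z0)) K := by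
  have h : lapG g (nq z0) = fun z => ((∑ i, (g z)⁻¹ i i)).re := by
    funext z
    rw [lapG_nq]; rfl
  rw [h]
  exact Complex.continuous_re.comp_continuousOn
    (continuousOn_finsetSum _ fun i _ => continuousOn_inv hg hc i i)

lemma continuousOn_gradG_nq {K : Set (Cm n)} (hg : ∀ z ∈ K, (g z).PosDef)
    (hc : ∀ i j, ContinuousOn (fun z => g z i j) K) :
    ContinuousOn (gradG g (nq z0) (nq z0)) K := by
  have h : gradG g (nq z0) (nq z0) = fun z => 
    (∑ i, ∑ j, (g z)⁻¹ i j * ((starRingEnd ℂ) (z j - z0 j) * (z i - z0 i))).re := by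
    funext z
    exact gradG_nq
  rw [h]
  refine Complex.continuous_re.comp_continuousOn
    (continuousOn_finsetSum _ fun i _ => continuousOn_finsetSum _ fun j _ => 
      (continuousOn_inv hg hc i j).mul ?_)
  fun_prop

lemma gradG_nq_pos (hg : (g z).PosDef) (hz : z ≠ z0) : 0 < gradG g (nq z0) (nq z0) z := by
  rw [gradG_nq]
  have h1 : (star (z - z0)) ≠ 0 := by
    intro h0
    exact sub_ne_zero.2 hz (by simpa using congrArg star h0)
  have h2 := hg.inv.dotProduct_mulVec_pos h1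
  have h3 : star (star (z - z0)) ⬝ᵥ ((g z)⁻¹.mulVec (star (z - z0))) =
      ∑ i, ∑ j, (g z)⁻¹ i j * ((starRingEnd ℂ) (z j - z0 j) * (z i - z0 i)) := by
    simp only [dotProduct, Matrix.mulVec, star_star, Pi.sub_apply, Finset.mul_sum, Pi.star_apply]
    refine Finset.sum_congr rfl fun i _ => Finset.sum_congr rfl fun j _ => ?_
    show (z i - z0 i) * ((g z)⁻¹ i j * (starRingEnd ℂ) (z j - z0 j)) = _
    ring
  rw [h3] at h2
  exact (Complex.lt_def.1 h2).1

/-- an interior minimum -/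
lemma exists_min_interior {K U : Set (Cm n)} (hK : IsCompact K) (hU : IsOpen U) (hUK : U ⊆ K)
    (hf : ContinuousOn f K) {z1 : Cm n} (h1 : z1 ∈ K) (hb : ∀ y ∈ K, y ∉ U → f z1 < f y) :
    ∃ y ∈ U, IsLocalMin f y ∧ f y ≤ f z1 := by
  obtain ⟨y, hy, hmin⟩ := hK.exists_isMinOn ⟨z1, h1⟩ hf
  have h2 : f y ≤ f z1 := hmin h1
  have h3 : y ∈ U := by
    by_contra h
    exact absurd h2 (not_le.2 (hb y hy h))
  refine ⟨y, h3, ?_, h2⟩
  filter_upwards [hU.mem_nhds h3] with x hx
  exact hmin (hUK hx)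

/-- the barrier -/
lemma lapG_barrier (α c : ℝ) : lapG g (fun y => Real.exp (-α * nq z0 y) - c) z =
    Real.exp (-α * nq z0 z) * (α ^ 2 * gradG g (nq z0) (nq z0) z - α * lapG g (nq z0) z) := by
  have hd : ∀ t, HasDerivAt (fun t : ℝ => Real.exp (-α * t) - c) (-α * Real.exp (-α * t)) t := by
    intro t
    have h1 : HasDerivAt (fun t : ℝ => -α * t) (-α) t := by
      simpa using (hasDerivAt_id t).const_mul (-α)
    have h2 := h1.exp.sub_const c
    rwa [mul_comm (Real.exp _)] at h2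
  have hd1 : deriv (fun t : ℝ => Real.exp (-α * t) - c) = fun t => -α * Real.exp (-α * t) :=
    funext fun t => (hd t).deriv
  have hd2 : ∀ t, deriv (deriv (fun t : ℝ => Real.exp (-α * t) - c)) t =
      α ^ 2 * Real.exp (-α * t) := by
    intro t
    rw [hd1]
    have h1 : HasDerivAt (fun t : ℝ => -α * t) (-α) t := by
      simpa using (hasDerivAt_id t).const_mul (-α)
    have h2 := h1.exp.const_mul (-α)
    rw [h2.deriv]
    ring
  have hφ : ContDiffAt ℝ 2 (fun t : ℝ => Real.exp (-α * t) - c) (nq z0 z) := by fun_prop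
  have h := lapG_comp (g := g) (φ := fun t : ℝ => Real.exp (-α * t) - c) (f := nq z0) (z := z)
    hφ nq_two
  rw [h, hd2, hd1]
  ring

/-- **spreading of positivity**: a nonnegative supersolution which is positive at the centre of a
ball is positive in the ball. -/
theorem spread {μ R : ℝ} (hμ : 0 ≤ μ) {u : Cm n → ℝ}
    (hg : ∀ z, nq z0 z ≤ R → (g z).PosDef)
    (hc : ∀ i j, ContinuousOn (fun z => g z i j) {z | nq z0 z ≤ R})
    (hu : ∀ z, nq z0 z ≤ R → ContDiffAt ℝ 2 u z)
    (h0 : ∀ z, nq z0 z ≤ R → 0 ≤ u z) (hL : ∀ z, nq z0 z < R → lapG g u z ≤ μ * u z)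
    (hz0 : 0 < u z0) {z1 : Cm n} (hz1 : nq z0 z1 < R) : 0 < u z1 := by
  by_contra hneg
  have hR : 0 < R := (nq_nonneg z0 z1).trans_lt hz1
  have hucont : ContinuousAt u z0 := (hu z0 (by rw [nq_self]; exact hR.le)).continuousAt
  have hev : ∀ᶠ z in 𝓝 z0, u z0 / 2 < u z := hucont.eventually (lt_mem_nhds (by linarith))
  obtain ⟨δ, hδ, hball⟩ := Metric.eventually_nhds_iff.1 hev
  have hr0 : 0 < δ ^ 2 / 2 := by positivity
  have hin : ∀ z, nq z0 z ≤ δ ^ 2 / 2 → u z0 / 2 < u z := by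
    intro z hz
    refine hball ?_
    rw [dist_eq_norm]
    refine lt_of_pow_lt_pow_left₀ 2 hδ.le ?_
    have := norm_sq_le_nq z0 z
    linarith
  set r := δ ^ 2 / 2 with hr
  set c := u z0 / 2 with hcdef
  have hcpos : 0 < c := by positivity
  have hz1r : r < nq z0 z1 := by
    by_contra h
    exact hneg (hcpos.trans (hin z1 (not_lt.1 h)))
  set K : Set (Cm n) := {z | r ≤ nq z0 z ∧ nq z0 z ≤ R} with hK
  set U : Set (Cm n) := {z | r < nq z0 z ∧ nq z0 z < R} with hU
  have hKc : IsCompact K := isCompact_nq z0 r R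
  have hUo : IsOpen U := (isOpen_lt continuous_const continuous_nq).inter
    (isOpen_lt continuous_nq continuous_const)
  have hUK : U ⊆ K := fun z hz => ⟨hz.1.le, hz.2.le⟩
  have hz1K : z1 ∈ K := ⟨hz1r.le, hz1.le⟩
  have hgK : ∀ z ∈ K, (g z).PosDef := fun z hz => hg z hz.2
  have hcK : ∀ i j, ContinuousOn (fun z => g z i j) K := fun i j => (hc i j).mono fun z hz => hz.2
  have hne : ∀ z ∈ K, z ≠ z0 := by
    intro z hz h
    rw [h, hK, mem_ofPred_eq, nq_self] at hz
    linarith [hz.1]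
  obtain ⟨y, hy, hymin⟩ := hKc.exists_isMinOn ⟨z1, hz1K⟩ (continuousOn_gradG_nq (z0 := z0) hgK hcK)
  set A := gradG g (nq z0) (nq z0) y with hA
  have hApos : 0 < A := gradG_nq_pos (hgK y hy) (hne y hy)
  obtain ⟨B, hB⟩ := hKc.exists_bound_of_continuousOn (continuousOn_lapG_nq (z0 := z0) hgK hcK)
  have hB0 : 0 ≤ B := (norm_nonneg _).trans (hB z1 hz1K)
  set α := (B + μ) / A + 1 with hα
  have hαA : α * A = B + μ + A := by rw [hα]; field_simp
  have hα1 : 1 ≤ α := by
    have : 0 ≤ (B + μ) / A := by positivity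
    linarith
  have hkey : 0 < α ^ 2 * A - α * B - μ := by
    have h1 : α ^ 2 * A = α * (B + μ + A) := by rw [← hαA]; ring
    have h2 : μ ≤ α * μ := le_mul_of_one_le_left hμ hα1
    have h3 : 0 < α * A := by positivity
    nlinarith
  -- the barrier
  set b : Cm n → ℝ := fun y => Real.exp (-α * nq z0 y) - Real.exp (-α * R) with hb
  have hb1 : ∀ z ∈ K, μ * b z < lapG g b z := by
    intro z hz
    have h1 : lapG g b z = Real.exp (-α * nq z0 z) *
        (α ^ 2 * gradG g (nq z0) (nq z0) z - α * lapG g (nq z0) z) := lapG_barrier _ _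
    have h2 : A ≤ gradG g (nq z0) (nq z0) z := hymin hz
    have h3 : lapG g (nq z0) z ≤ B := (le_abs_self _).trans (hB z hz)
    have h4 : 0 < Real.exp (-α * nq z0 z) := Real.exp_pos _
    have h5 : 0 < Real.exp (-α * R) := Real.exp_pos _
    have h6 : μ < α ^ 2 * gradG g (nq z0) (nq z0) z - α * lapG g (nq z0) z := by
      have h7 : α ^ 2 * A ≤ α ^ 2 * gradG g (nq z0) (nq z0) z :=
        mul_le_mul_of_nonneg_left h2 (by positivity)
      have h8 : α * lapG g (nq z0) z ≤ α * B := mul_le_mul_of_nonneg_left h3 (by positivity)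
      linarith
    have h9 : μ * b z ≤ Real.exp (-α * nq z0 z) * μ := by
      rw [hb]
      have : 0 ≤ μ * Real.exp (-α * R) := by positivity
      simp only []
      linarith [mul_comm μ (Real.exp (-α * nq z0 z)), mul_sub μ (Real.exp (-α * nq z0 z))
        (Real.exp (-α * R))]
    rw [h1]
    exact h9.trans_lt (mul_lt_mul_of_pos_left h6 h4)
  have hb2 : ∀ z, b z ≤ 1 := by
    intro z
    have h1 : Real.exp (-α * nq z0 z) ≤ 1 := by
      rw [Real.exp_le_one_iff]
      have : 0 ≤ α * nq z0 z := mul_nonneg (by linarith) (nq_nonneg _ _)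
      linarith
    have h5 : 0 < Real.exp (-α * R) := Real.exp_pos _
    simp only [hb]
    linarith
  have hb3 : ∀ z, nq z0 z = R → b z = 0 := by
    intro z hz
    simp only [hb, hz, sub_self]
  have hb4 : 0 < b z1 := by
    simp only [hb]
    rw [sub_pos, Real.exp_lt_exp]
    nlinarith
  have hbc : ∀ z, ContDiffAt ℝ 2 b z := by
    intro z
    have : ContDiffAt ℝ 2 (fun y => Real.exp (-α * nq z0 y)) z :=
      Real.contDiff_exp.contDiffAt.comp z (contDiffAt_const.mul nq_two)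
    exact this.sub contDiffAt_const
  -- comparison function
  have hfc : ∀ z, nq z0 z ≤ R → ContDiffAt ℝ 2 (fun y => u y + (-(c / 2)) * b y) z := fun z hz =>
    (hu z hz).add (contDiffAt_const.mul (hbc z))
  have hu1 : u z1 = 0 := le_antisymm (not_lt.1 hneg) (h0 z1 hz1.le)
  have hfz1 : u z1 + (-(c / 2)) * b z1 < 0 := by
    rw [hu1]
    have : 0 < c / 2 * b z1 := by positivity
    linarith
  obtain ⟨x, hxU, hxmin, hxle⟩ := exists_min_interior (f := fun y => u y + (-(c / 2)) * b y) hKc hUo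
    hUK (fun z hz => (hfc z hz.2).continuousAt.continuousWithinAt) hz1K (by
      intro x hx hxU
      refine hfz1.trans_le ?_
      by_cases h : nq z0 x ≤ r
      · have h1 := hin x h
        have h2 : c / 2 * b x ≤ c / 2 * 1 := mul_le_mul_of_nonneg_left (hb2 x) (by positivity)
        linarith
      · have h1 : nq z0 x = R := by
          refine le_antisymm hx.2 ?_
          by_contra h2
          exact hxU ⟨not_le.1 h, not_le.1 h2⟩
        rw [hb3 x h1]
        have := h0 x hx.2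
        linarith)
  have h1 := lapG_nonneg_of_min (hgK x (hUK hxU)) (hfc x hxU.2.le) hxmin
  have h2 : lapG g (fun y => u y + (-(c / 2)) * b y) x = lapG g u x + (-(c / 2)) * lapG g b x := by
    rw [lapG_add (h := fun y => (-(c / 2)) * b y) (hu x hxU.2.le) (contDiffAt_const.mul (hbc x)),
      lapG_const_mul _ (hbc x)]
  rw [h2] at h1
  have h3 := hL x hxU.2
  have h4 := hb1 x (hUK hxU)
  have h5 : μ * (u x + (-(c / 2)) * b x) ≤ 0 :=
    mul_nonpos_of_nonneg_of_nonpos hμ (hxle.trans hfz1.le)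
  have h6 : c / 2 * (μ * b x) < c / 2 * lapG g b x := mul_lt_mul_of_pos_left h4 (by positivity)
  linarith [mul_add μ (u x) (-(c / 2) * b x)]

/-- the local step of the weak maximum principle -/
theorem weak_step {R : ℝ} (hR : 0 < R) (hg : ∀ z, nq z0 z ≤ R → (g z).PosDef)
    (hc : ∀ i j, ContinuousOn (fun z => g z i j) {z | nq z0 z ≤ R}) : ∃ C : ℝ, 0 ≤ C ∧ 
    ∀ (μ : ℝ) (u : Cm n → ℝ) (a δ : ℝ), 0 ≤ μ → 0 < δ → (∀ z, nq z0 z ≤ R → ContDiffAt ℝ 2 u z) →
    (∀ z, nq z0 z ≤ R → a ≤ u z) → (∀ z, nq z0 z < R → lapG g u z ≤ μ * u z) →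
    (∃ z, nq z0 z ≤ R / 4 ∧ u z < a + δ * R / 4) → 0 ≤ μ * (a + δ * R) + δ * C := by
  have hK : IsCompact {z | nq z0 z ≤ R} := by
    have := isCompact_nq z0 0 R
    refine (isCompact_nq z0 0 R).of_isClosed_subset (isClosed_le continuous_nq continuous_const)
      fun z hz => ⟨nq_nonneg _ _, hz⟩
  obtain ⟨C, hC⟩ := hK.exists_bound_of_continuousOn (continuousOn_lapG_nq (z0 := z0) hg hc)
  have hC0 : 0 ≤ C := (norm_nonneg _).trans (hC z0 (by
    show nq z0 z0 ≤ R
    rw [nq_self]; exact hR.le))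
  refine ⟨C, hC0, ?_⟩
  intro μ u a δ hμ hδ hu ha hL hz
  obtain ⟨z1, hz1, hz1'⟩ := hz
  have hUo : IsOpen {z | nq z0 z < R} := isOpen_lt continuous_nq continuous_const
  have hfc : ∀ z, nq z0 z ≤ R → ContDiffAt ℝ 2 (fun y => u y + δ * nq z0 y) z := fun z hz =>
    (hu z hz).add (contDiffAt_const.mul nq_two)
  have hf1 : u z1 + δ * nq z0 z1 < a + δ * R / 2 := by
    have : δ * nq z0 z1 ≤ δ * (R / 4) := mul_le_mul_of_nonneg_left hz1 hδ.le
    linarith
  obtain ⟨x, hxU, hxmin, hxle⟩ := exists_min_interior (f := fun y => u y + δ * nq z0 y) hK hUo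
    (fun z (hz : nq z0 z < R) => (le_of_lt hz : nq z0 z ≤ R))
    (fun z hz => (hfc z hz).continuousAt.continuousWithinAt)
    (z1 := z1) (hz1.trans (by linarith) : nq z0 z1 ≤ R) (by
      intro x hx hxU
      refine hf1.trans ?_
      have h1 : nq z0 x = R := le_antisymm hx (not_lt.1 hxU)
      rw [h1]
      have := ha x hx
      have : 0 < δ * R := by positivity
      linarith)
  have h1 := lapG_nonneg_of_min (hg x (le_of_lt hxU)) (hfc x (le_of_lt hxU)) hxmin
  rw [lapG_add (h := fun y => δ * nq z0 y) (hu x (le_of_lt hxU)) (contDiffAt_const.mul nq_two),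
    lapG_const_mul _ nq_two] at h1
  have h2 := hL x hxU
  have h3 : lapG g (nq z0) x ≤ C := (le_abs_self _).trans (hC x (le_of_lt hxU : nq z0 x ≤ R))
  have h4 : δ * lapG g (nq z0) x ≤ δ * C := mul_le_mul_of_nonneg_left h3 hδ.le
  have h5 : u x ≤ a + δ * R := by
    have h6 : 0 ≤ δ * nq z0 x := mul_nonneg hδ.le (nq_nonneg _ _)
    have h7 : 0 < δ * R := by positivity
    have h8 : u x + δ * nq z0 x ≤ u z1 + δ * nq z0 z1 := hxle
    linarith
  have h6 : μ * u x ≤ μ * (a + δ * R) := mul_le_mul_of_nonneg_left h5 hμ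
  linarith

end Vale.Agent.P299.D2.H766
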